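import Mathlib

/-!
# P064, Theorem B (bounded-degree hosts): the arithmetic step

`deg_arith`: if `t! ≤ μ ^ t` then `m ^ 2 * t * D ^ (m - 1) ≤ μ * (12 D) ^ e`
whenever `1 ≤ m`, `1 ≤ e`, `m - 1 ≤ e`, `1 ≤ D`.
-/

namespace Vale.Agent.Lib.P064.H69

/-- `m ^ 2 ≤ 4 ^ (m - 1)` for `1 ≤ m`. -/
theorem sq_le_four_pow_pred (m : ℕ) (hm : 1 ≤ m) : m ^ 2 ≤ 4 ^ (m - 1) := by
  induction m, hm using Nat.le_induction with
  | base => norm_num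
  | succ k hk ih =>
    have h1 : (k + 1) ^ 2 ≤ 4 * k ^ 2 := by nlinarith
    have h2 : 4 ^ (k + 1 - 1) = 4 * 4 ^ (k - 1) := by
      have : k + 1 - 1 = (k - 1) + 1 := by omega
      rw [this, pow_succ]; ring
    rw [h2]
    calc (k + 1) ^ 2 ≤ 4 * k ^ 2 := h1
      _ ≤ 4 * 4 ^ (k - 1) := Nat.mul_le_mul_left 4 ih

/-- From `t! ≤ μ ^ t` and `1 ≤ t` we get `t ≤ 3 μ`. -/
theorem le_three_mul_of_factorial_le (t : ℕ) (μ : ℝ) (hμ : 0 ≤ μ) (ht1 : 1 ≤ t)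
    (ht : (t.factorial : ℝ) ≤ μ ^ t) : (t : ℝ) ≤ 3 * μ := by
  have hfpos : (0 : ℝ) < (t.factorial : ℝ) := by exact_mod_cast Nat.factorial_pos t
  have h1 : (t : ℝ) ^ t / (t.factorial : ℝ) ≤ Real.exp (t : ℝ) :=
    Real.pow_div_factorial_le_exp (t : ℝ) (Nat.cast_nonneg t) t
  have h2 : (t : ℝ) ^ t ≤ Real.exp (t : ℝ) * (t.factorial : ℝ) := by
    rwa [div_le_iff₀ hfpos] at h1
  have h3 : Real.exp (t : ℝ) = Real.exp 1 ^ t := by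
    rw [← Real.exp_nat_mul]; simp
  have he0 : (0 : ℝ) ≤ Real.exp 1 := (Real.exp_pos 1).le
  have h4 : (t : ℝ) ^ t ≤ (Real.exp 1 * μ) ^ t := by
    rw [mul_pow, ← h3]
    exact h2.trans (mul_le_mul_of_nonneg_left ht (Real.exp_pos _).le)
  have h5 : (t : ℝ) ≤ Real.exp 1 * μ := by
    have hne : t ≠ 0 := by omega
    exact (pow_le_pow_iff_left₀ (Nat.cast_nonneg t) (mul_nonneg he0 hμ) hne).mp h4
  have h6 : Real.exp 1 ≤ 3 := Real.exp_one_lt_three.le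
  exact h5.trans (mul_le_mul_of_nonneg_right h6 hμ)

/-- The arithmetic step of Theorem B. -/
theorem deg_arith (m e t D : ℕ) (μ : ℝ) (hμ : 0 ≤ μ) (hm : 1 ≤ m) (he : 1 ≤ e)
    (hme : m - 1 ≤ e) (hD : 1 ≤ D) (ht : (t.factorial : ℝ) ≤ μ ^ t) :
    ((m ^ 2 * t * D ^ (m - 1) : ℕ) : ℝ) ≤ μ * (12 * (D : ℝ)) ^ e := by
  have hD1 : (1 : ℝ) ≤ (D : ℝ) := by exact_mod_cast hD
  have hD0 : (0 : ℝ) ≤ (D : ℝ) := by linarith
  have h12 : (0 : ℝ) ≤ 12 * (D : ℝ) := by linarith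
  rcases Nat.eq_zero_or_pos t with rfl | htpos
  · simp only [mul_zero, zero_mul, Nat.cast_zero]
    exact mul_nonneg hμ (pow_nonneg h12 e)
  · have ht3 : (t : ℝ) ≤ 3 * μ := le_three_mul_of_factorial_le t μ hμ htpos ht
    have hm4 : ((m ^ 2 : ℕ) : ℝ) ≤ (4 : ℝ) ^ (m - 1) := by
      have := sq_le_four_pow_pred m hm
      exact_mod_cast this
    have h4D : (1 : ℝ) ≤ 4 * (D : ℝ) := by linarith
    have hpow : (4 * (D : ℝ)) ^ (m - 1) ≤ (4 * (D : ℝ)) ^ e :=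
      pow_le_pow_right₀ h4D hme
    have h3e : (3 : ℝ) ≤ (3 : ℝ) ^ e := by
      calc (3 : ℝ) = 3 ^ 1 := by norm_num
        _ ≤ 3 ^ e := pow_le_pow_right₀ (by norm_num) he
    have hcast : ((m ^ 2 * t * D ^ (m - 1) : ℕ) : ℝ)
        = ((m ^ 2 : ℕ) : ℝ) * (t : ℝ) * (D : ℝ) ^ (m - 1) := by
      push_cast; ring
    rw [hcast]
    have hDp : (0 : ℝ) ≤ (D : ℝ) ^ (m - 1) := pow_nonneg hD0 _
    have h4Dp : (0 : ℝ) ≤ (4 * (D : ℝ)) ^ e := pow_nonneg (by linarith) _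
    calc ((m ^ 2 : ℕ) : ℝ) * (t : ℝ) * (D : ℝ) ^ (m - 1)
        ≤ (4 : ℝ) ^ (m - 1) * (3 * μ) * (D : ℝ) ^ (m - 1) := by
          apply mul_le_mul_of_nonneg_right _ hDp
          exact mul_le_mul hm4 ht3 (Nat.cast_nonneg t) (pow_nonneg (by norm_num) _)
      _ = 3 * μ * (4 * (D : ℝ)) ^ (m - 1) := by rw [mul_pow]; ring
      _ ≤ 3 * μ * (4 * (D : ℝ)) ^ e :=
          mul_le_mul_of_nonneg_left hpow (by positivity)
      _ ≤ 3 ^ e * μ * (4 * (D : ℝ)) ^ e := by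
          apply mul_le_mul_of_nonneg_right _ h4Dp
          exact mul_le_mul_of_nonneg_right h3e hμ
      _ = μ * (12 * (D : ℝ)) ^ e := by
          have : (12 : ℝ) * (D : ℝ) = 3 * (4 * (D : ℝ)) := by ring
          rw [this, mul_pow 3 (4 * (D : ℝ)) e]; ring

end Vale.Agent.Lib.P064.H69
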