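import Vale.Agent.KK.LS.Main

/-!
# P064: from a labelled copy-count inequality to the threshold, generically

Generic assembly lemmas, independent of how the labelled copy-count inequality is obtained.

* `threshold_le_of_hlab`: if for every admissible density `p` of the expectation threshold and
  every pattern `F` on `n` vertices `N_lab(H,F) ≤ n! * min 1 (L * (2 p)) ^ e(F)`, then
  `p_c(n,H) ≤ 139 * L * p_E(n,H) * log n`.
* `labelled_desc_of_pow`: from `N_lab(H,F) ≤ n ^ |V(F)| * (c q) ^ e(F)` for all patterns to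
  `N_lab(H,F) ≤ n! * min 1 (7.5 c q) ^ e(F)` for patterns on `n` vertices.
* `copyCount_le_of_labelled_desc`: from labelled copies to copies.
* bridges between three forms of a bound on all degrees of the host.
-/

namespace Vale.Agent.Lib.P064.H69

open SimpleGraph Finset
open Vale.Agent.KK Vale.Agent.KK.PP Vale.Agent.KK.PF Vale.Agent.KK.RG Vale.Agent.Lib.P064
open Vale.Agent.Lib.P064.LS Vale.Agent.KK.LS

/-- Bridge: the instance-free degree bound `(H.neighborSet v).ncard ≤ D` gives the finset form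
of the degree bound. -/
theorem hdeg_of_neighborSet_ncard {n : ℕ} (H : SimpleGraph (Fin n)) (D : ℕ)
    (h : ∀ v : Fin n, (H.neighborSet v).ncard ≤ D) :
    ∀ v : Fin n, ∀ N : Finset (Fin n), (∀ u ∈ N, H.Adj v u) → N.card ≤ D := by
  intro v N hN
  have h1 : (N : Set (Fin n)) ⊆ H.neighborSet v := by
    intro u hu
    exact hN u (Finset.mem_coe.1 hu)
  have h2 := Set.ncard_le_ncard h1 (Set.toFinite _)
  rw [Set.ncard_coe_finset] at h2
  exact h2.trans (h v)

/-- Bridge: the finset form of the degree bound gives the instance-free form. -/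
theorem neighborSet_ncard_of_hdeg {n : ℕ} (H : SimpleGraph (Fin n)) (D : ℕ)
    (hdeg : ∀ v : Fin n, ∀ N : Finset (Fin n), (∀ u ∈ N, H.Adj v u) → N.card ≤ D) :
    ∀ v : Fin n, (H.neighborSet v).ncard ≤ D := by
  classical
  intro v
  have h1 := hdeg v (H.neighborSet v).toFinset (fun u hu => by
    rw [Set.mem_toFinset] at hu
    exact hu)
  rwa [← Set.ncard_eq_toFinset_card'] at h1

/-- Bridge: a bound on all degrees gives the finset form of the degree bound. -/
theorem hdeg_of_degree_le {n : ℕ} (H : SimpleGraph (Fin n)) [DecidableRel H.Adj] (D : ℕ)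
    (h : ∀ v : Fin n, H.degree v ≤ D) :
    ∀ v : Fin n, ∀ N : Finset (Fin n), (∀ u ∈ N, H.Adj v u) → N.card ≤ D := by
  intro v N hN
  have h1 : N ⊆ H.neighborFinset v := by
    intro u hu
    rw [SimpleGraph.mem_neighborFinset]
    exact hN u hu
  exact (Finset.card_le_card h1).trans (h v)

/-- From the power form of the labelled inequality to the falling-factorial form, for patterns
without isolated vertices: the constant `c` becomes `7.5 c`. -/
theorem labelled_main_of_pow {n : ℕ} (H : SimpleGraph (Fin n)) {q c : ℝ}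
    (hq0 : 0 ≤ q) (hc : 0 ≤ c)
    (W : Type) [Fintype W] (F : SimpleGraph W) (hiso : ∀ w, ∃ w', F.Adj w w')
    (hp : (H.labelledCopyCount F : ℝ) ≤ (n : ℝ) ^ Fintype.card W * (c * q) ^ F.edgeSet.ncard) :
    (H.labelledCopyCount F : ℝ) ≤
      (n.descFactorial (Fintype.card W) : ℝ) * (7.5 * c * q) ^ F.edgeSet.ncard := by
  classical
  have hcq : 0 ≤ c * q := mul_nonneg hc hq0
  by_cases hw : Fintype.card W ≤ n
  swap
  · rw [labelled_eq_zero_of_card_lt H F (not_le.1 hw)]
    simp only [Nat.cast_zero]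
    have h0 : 0 ≤ 7.5 * c * q := by nlinarith
    positivity
  have hcard2 := card_le_two_mul_edges F hiso
  have hconv := pow_le_exp_pow_mul_descFactorial n (Fintype.card W) hw
  have hexp1 : 1 ≤ Real.exp 1 := Real.one_le_exp (by norm_num)
  have hD0 : (0 : ℝ) ≤ (n.descFactorial (Fintype.card W) : ℝ) := Nat.cast_nonneg _
  have hexp2 : Real.exp 1 ^ 2 ≤ 7.5 := by
    have h1 : Real.exp 1 < 2.7182818286 := Real.exp_one_lt_d9
    have h0 : (0 : ℝ) < Real.exp 1 := Real.exp_pos 1
    have h2 : Real.exp 1 ^ 2 < 2.7182818286 ^ 2 := by gcongr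
    norm_num at h2 ⊢
    linarith
  set e := F.edgeSet.ncard with he
  calc (H.labelledCopyCount F : ℝ)
      ≤ (n : ℝ) ^ Fintype.card W * (c * q) ^ e := hp
    _ ≤ (Real.exp 1 ^ (Fintype.card W) * (n.descFactorial (Fintype.card W) : ℝ)) *
          (c * q) ^ e := by
        gcongr
    _ ≤ (Real.exp 1 ^ (2 * e) * (n.descFactorial (Fintype.card W) : ℝ)) *
          (c * q) ^ e := by
        gcongr
    _ = (n.descFactorial (Fintype.card W) : ℝ) *
          (Real.exp 1 ^ 2 * (c * q)) ^ e := by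
        rw [pow_mul, mul_pow]
        ring
    _ ≤ (n.descFactorial (Fintype.card W) : ℝ) * (7.5 * c * q) ^ e := by
        have hb : Real.exp 1 ^ 2 * (c * q) ≤ 7.5 * c * q := by
          nlinarith [mul_nonneg (sub_nonneg.2 hexp2) hcq]
        have hb0 : 0 ≤ Real.exp 1 ^ 2 * (c * q) := by positivity
        exact mul_le_mul_of_nonneg_left (pow_le_pow_left₀ hb0 hb e) hD0

/-- From the power form of the labelled inequality (for all pattern types) to the form
`N_lab(H,F) ≤ n! * min 1 (7.5 c q) ^ e(F)` for patterns on `n` vertices. -/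
theorem labelled_desc_of_pow {n : ℕ} (H : SimpleGraph (Fin n)) {q c : ℝ}
    (hq0 : 0 ≤ q) (hc : 0 ≤ c)
    (hpow : 7.5 * c * q ≤ 1 → ∀ (W : Type) [Fintype W] [DecidableEq W] (F : SimpleGraph W),
      (H.labelledCopyCount F : ℝ) ≤ (n : ℝ) ^ Fintype.card W * (c * q) ^ F.edgeSet.ncard)
    (F : SimpleGraph (Fin n)) :
    (H.labelledCopyCount F : ℝ) ≤
      (n.factorial : ℝ) * (min 1 (7.5 * c * q)) ^ F.edgeSet.ncard := by
  classical
  by_cases hq : 7.5 * c * q ≤ 1
  · rw [min_eq_right hq]
    have key := labelled_of_support H F ((7.5 * c * q) ^ F.edgeSet.ncard) ?_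
    · rw [Fintype.card_fin, Nat.descFactorial_self] at key
      exact key
    rw [Fintype.card_fin, ← ncard_edgeSet_induce_support F]
    exact labelled_main_of_pow H hq0 hc F.support (F.induce F.support)
      (induce_support_no_isolated F) (hpow hq F.support (F.induce F.support))
  · rw [not_le] at hq
    rw [min_eq_left hq.le, one_pow, mul_one]
    have h1 := labelled_le_top H F
    rw [labelledCopyCount_top, Fintype.card_fin, Nat.descFactorial_self] at h1
    exact_mod_cast h1

/-- **Generic threshold bound.** If the labelled copy-count inequality with constant `L ≥ 1`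
holds at every admissible density of the expectation threshold, then
`p_c(n,H) ≤ 139 * L * p_E(n,H) * log n`. -/
theorem threshold_le_of_hlab {n : ℕ} (hn : 2 ≤ n) (H : SimpleGraph (Fin n)) (L : ℝ)
    (hL : 1 ≤ L)
    (hlab : ∀ p : ℝ, 0 ≤ p → p ≤ 1 →
      (∀ H' : H.Subgraph, (1 : ℝ) / 2 ≤
        ((⊤ : SimpleGraph (Fin n)).copyCount H'.coe : ℝ) * p ^ H'.edgeSet.ncard) →
      ∀ F : SimpleGraph (Fin n), (H.labelledCopyCount F : ℝ) ≤
        (n.factorial : ℝ) * (min 1 (L * (2 * p))) ^ F.edgeSet.ncard) :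
    sInf {p : ℝ | 0 ≤ p ∧ p ≤ 1 ∧ (1 : ℝ) / 2 ≤ ∑ G : SimpleGraph (Fin n),
        Set.indicator {G | H ⊑ G}
          (fun G => p ^ G.edgeSet.ncard * (1 - p) ^ (n.choose 2 - G.edgeSet.ncard)) G} ≤
      139 * L * sInf {p : ℝ | 0 ≤ p ∧ p ≤ 1 ∧ ∀ H' : H.Subgraph,
          (1 : ℝ) / 2 ≤
            ((⊤ : SimpleGraph (Fin n)).copyCount H'.coe : ℝ) * p ^ H'.edgeSet.ncard} *
        Real.log n := by
  classical
  set Sc : Set ℝ := {p : ℝ | 0 ≤ p ∧ p ≤ 1 ∧ (1 : ℝ) / 2 ≤ ∑ G : SimpleGraph (Fin n),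
        Set.indicator {G | H ⊑ G}
          (fun G => p ^ G.edgeSet.ncard * (1 - p) ^ (n.choose 2 - G.edgeSet.ncard)) G} with hSc
  set SE : Set ℝ := {p : ℝ | 0 ≤ p ∧ p ≤ 1 ∧ ∀ H' : H.Subgraph,
        (1 : ℝ) / 2 ≤
          ((⊤ : SimpleGraph (Fin n)).copyCount H'.coe : ℝ) * p ^ H'.edgeSet.ncard} with hSE
  have hl2 : (0.6931471803 : ℝ) < Real.log 2 := Real.log_two_gt_d9
  have hnR : (2 : ℝ) ≤ n := by exact_mod_cast hn
  have hnpos : (0 : ℝ) < n := by linarith
  have hlogn : Real.log 2 ≤ Real.log n := Real.log_le_log (by norm_num) hnR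
  have hlogpos : 0 < Real.log n := by linarith
  have hLpos : (0 : ℝ) < L := by linarith
  have hbddc : BddBelow Sc := ⟨0, fun p hp => hp.1⟩
  have hneE : SE.Nonempty := by
    refine ⟨1, zero_le_one, le_rfl, fun H' => ?_⟩
    have h1 : (1 : ℝ) ≤ ((⊤ : SimpleGraph (Fin n)).copyCount H'.coe : ℝ) := by
      exact_mod_cast one_le_copyCount_top_coe H'
    rw [one_pow, mul_one]
    linarith
  have hsE0 : 0 ≤ sInf SE := le_csInf hneE (fun p hp => hp.1)
  have hkey : ∀ p ∈ SE, sInf Sc ≤ 139 * L * p * Real.log n := by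
    intro p hp
    obtain ⟨p', hp'0, hp'1, hp'c, hp'le⟩ :=
      contain_of_labelled hn H L hL p hp.1 hp.2.2 (hlab p hp.1 hp.2.1 hp.2.2)
    have hmem : p' ∈ Sc := ⟨hp'0, hp'1, hp'c⟩
    exact le_trans (csInf_le hbddc hmem) hp'le
  have hC : (0 : ℝ) < 139 * L * Real.log n := by positivity
  apply le_of_forall_pos_le_add
  intro ε hε
  set η : ℝ := ε / (139 * L * Real.log n) with hη
  have hη0 : 0 < η := div_pos hε hC
  obtain ⟨p, hpSE, hplt⟩ := exists_lt_of_csInf_lt hneE (by linarith : sInf SE < sInf SE + η)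
  have h1 := hkey p hpSE
  have h3 : 139 * L * Real.log n * η = ε := by
    rw [hη]; field_simp
  calc sInf Sc ≤ 139 * L * p * Real.log n := h1
    _ ≤ 139 * L * (sInf SE + η) * Real.log n := by
        have : 139 * L * p ≤ 139 * L * (sInf SE + η) := by
          apply mul_le_mul_of_nonneg_left hplt.le
          positivity
        exact mul_le_mul_of_nonneg_right this hlogpos.le
    _ = 139 * L * sInf SE * Real.log n + 139 * L * Real.log n * η := by ring
    _ = 139 * L * sInf SE * Real.log n + ε := by rw [h3]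

/-- From labelled copies to copies: `N_lab(H,F) ≤ n! * X` gives `N(H,F) ≤ N(K_n,F) * X`. -/
theorem copyCount_le_of_labelled_desc {n : ℕ} (H : SimpleGraph (Fin n))
    (F : SimpleGraph (Fin n)) (X : ℝ)
    (hlab : (H.labelledCopyCount F : ℝ) ≤ (n.factorial : ℝ) * X) :
    (H.copyCount F : ℝ) ≤ ((⊤ : SimpleGraph (Fin n)).copyCount F : ℝ) * X := by
  classical
  have htop : (⊤ : SimpleGraph (Fin n)).labelledCopyCount F = n.factorial := by
    rw [labelledCopyCount_top, Fintype.card_fin, Nat.descFactorial_self]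
  apply copyCount_le_of_labelled H (⊤ : SimpleGraph (Fin n)) F
  rw [htop]
  exact hlab

end Vale.Agent.Lib.P064.H69
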