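import Vale.Agent.KK.LS.Main
import Vale.Agent.Lib.P064.helper69.DegGeneric
import Vale.Agent.Lib.P064.helper49.Deg

/-!
# P064, Theorem B (hosts of bounded degree): assembly

From the labelled copy-count inequality `N_lab(H,F) ≤ n ^ |V(F)| * (12 D q) ^ e(F)` for hosts of
maximum degree at most `D` (the lemma `deg_labelled_pow`), we derive

* `deg_labelled_desc`: `N_lab(H,F) ≤ n! * min 1 (90 D q) ^ e(F)` for patterns on `n` vertices;
* `deg_hlab`: the same at `q = 2 p` under the `1/2`-hypothesis;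
* `deg_threshold_le`: `p_c(H) ≤ 12510 * D * p_E(H) * log n`;
* `deg_copyCount_le`: `N(H,F) ≤ N(K_n,F) * min 1 (90 D q) ^ e(F)`.
-/

namespace Vale.Agent.Lib.P064.H69

open SimpleGraph Finset
open Vale.Agent.KK Vale.Agent.KK.PP Vale.Agent.KK.PF Vale.Agent.KK.RG Vale.Agent.Lib.P064
open Vale.Agent.Lib.P064.LS Vale.Agent.KK.LS

/-- The labelled inequality with a falling factorial, for patterns without isolated vertices
and hosts of maximum degree at most `D`. -/
theorem deg_main {n : ℕ} (hn : 2 ≤ n) (H : SimpleGraph (Fin n)) {q : ℝ}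
    (hq0 : 0 ≤ q) (h : SubgraphsExpected n H q) (D : ℕ) (hD : 1 ≤ D)
    (hdeg : ∀ v : Fin n, ∀ N : Finset (Fin n), (∀ u ∈ N, H.Adj v u) → N.card ≤ D)
    (W : Type) [Fintype W] (F : SimpleGraph W) (hiso : ∀ w, ∃ w', F.Adj w w') :
    (H.labelledCopyCount F : ℝ) ≤
      (n.descFactorial (Fintype.card W) : ℝ) * (90 * D * q) ^ F.edgeSet.ncard := by
  classical
  have hDq : 0 ≤ (D : ℝ) * q := mul_nonneg (Nat.cast_nonneg D) hq0
  by_cases hw : Fintype.card W ≤ n
  swap
  · rw [labelled_eq_zero_of_card_lt H F (not_le.1 hw)]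
    simp only [Nat.cast_zero]
    have h0 : 0 ≤ 90 * (D : ℝ) * q := by nlinarith
    positivity
  have hcard2 := card_le_two_mul_edges F hiso
  have hconv := pow_le_exp_pow_mul_descFactorial n (Fintype.card W) hw
  have hexp1 : 1 ≤ Real.exp 1 := Real.one_le_exp (by norm_num)
  have hD0 : (0 : ℝ) ≤ (n.descFactorial (Fintype.card W) : ℝ) := Nat.cast_nonneg _
  have hexp2 : Real.exp 1 ^ 2 ≤ 7.5 := by
    have h1 : Real.exp 1 < 2.7182818286 := Real.exp_one_lt_d9
    have h0 : (0 : ℝ) < Real.exp 1 := Real.exp_pos 1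
    have h2 : Real.exp 1 ^ 2 < 2.7182818286 ^ 2 := by gcongr
    norm_num at h2 ⊢
    linarith
  have hp := Vale.Agent.Lib.P064.H49.deg_labelled_pow hn H hq0 h D hD hdeg W F
  have h12 : 0 ≤ 12 * (D : ℝ) * q := by nlinarith
  set e := F.edgeSet.ncard with he
  calc (H.labelledCopyCount F : ℝ)
      ≤ (n : ℝ) ^ Fintype.card W * (12 * D * q) ^ e := hp
    _ ≤ (Real.exp 1 ^ (Fintype.card W) * (n.descFactorial (Fintype.card W) : ℝ)) *
          (12 * D * q) ^ e := by
        gcongr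
    _ ≤ (Real.exp 1 ^ (2 * e) * (n.descFactorial (Fintype.card W) : ℝ)) *
          (12 * D * q) ^ e := by
        gcongr
    _ = (n.descFactorial (Fintype.card W) : ℝ) *
          (Real.exp 1 ^ 2 * (12 * D * q)) ^ e := by
        rw [pow_mul, mul_pow]
        ring
    _ ≤ (n.descFactorial (Fintype.card W) : ℝ) * (90 * D * q) ^ e := by
        have hb : Real.exp 1 ^ 2 * (12 * D * q) ≤ 90 * D * q := by
          nlinarith [mul_nonneg (sub_nonneg.2 hexp2) hDq]
        have hb0 : 0 ≤ Real.exp 1 ^ 2 * (12 * D * q) := by positivity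
        exact mul_le_mul_of_nonneg_left (pow_le_pow_left₀ hb0 hb e) hD0

/-- **(a)** The labelled copy-count inequality with `L = 90 D` for hosts of maximum degree at
most `D`: for every pattern `F` on `n` vertices, `N_lab(H,F) ≤ n! * min 1 (90 D q) ^ e(F)`. -/
theorem deg_labelled_desc {n : ℕ} (hn : 2 ≤ n) (H : SimpleGraph (Fin n)) {q : ℝ}
    (hq0 : 0 ≤ q) (h : SubgraphsExpected n H q) (D : ℕ) (hD : 1 ≤ D)
    (hdeg : ∀ v : Fin n, ∀ N : Finset (Fin n), (∀ u ∈ N, H.Adj v u) → N.card ≤ D)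
    (F : SimpleGraph (Fin n)) :
    (H.labelledCopyCount F : ℝ) ≤
      (n.factorial : ℝ) * (min 1 (90 * D * q)) ^ F.edgeSet.ncard := by
  classical
  by_cases hq : 90 * (D : ℝ) * q ≤ 1
  · rw [min_eq_right hq]
    have key := labelled_of_support H F ((90 * D * q) ^ F.edgeSet.ncard) ?_
    · rw [Fintype.card_fin, Nat.descFactorial_self] at key
      exact key
    rw [Fintype.card_fin, ← ncard_edgeSet_induce_support F]
    exact deg_main hn H hq0 h D hD hdeg F.support (F.induce F.support)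
      (induce_support_no_isolated F)
  · rw [not_le] at hq
    rw [min_eq_left hq.le, one_pow, mul_one]
    have h1 := labelled_le_top H F
    rw [labelledCopyCount_top, Fintype.card_fin, Nat.descFactorial_self] at h1
    exact_mod_cast h1

/-- **(b)** The labelled copy-count inequality with `L = 90 D` at an admissible density `p`
of the expectation threshold (no lower bound on `p` is needed). -/
theorem deg_hlab {n : ℕ} (hn : 2 ≤ n) (H : SimpleGraph (Fin n)) (D : ℕ) (hD : 1 ≤ D)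
    (hdeg : ∀ v : Fin n, ∀ N : Finset (Fin n), (∀ u ∈ N, H.Adj v u) → N.card ≤ D)
    (p : ℝ) (hp0 : 0 ≤ p)
    (hp : ∀ H' : H.Subgraph, (1 : ℝ) / 2 ≤
      ((⊤ : SimpleGraph (Fin n)).copyCount H'.coe : ℝ) * p ^ H'.edgeSet.ncard)
    (F : SimpleGraph (Fin n)) :
    (H.labelledCopyCount F : ℝ) ≤
      (n.factorial : ℝ) * (min 1 (90 * D * (2 * p))) ^ F.edgeSet.ncard := by
  have hyp : SubgraphsExpected n H (2 * p) := subgraphsExpected_two_mul H p hp0 hp
  exact deg_labelled_desc hn H (by positivity) hyp D hD hdeg F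

/-- **(c)** **The threshold of a graph of maximum degree at most `D`.** For every graph `H` on
`n ≥ 2` vertices all of whose degrees are at most `D`, `p_c(n,H) ≤ 12510 * D * p_E(n,H) * log n`. -/
theorem deg_threshold_le {n : ℕ} (hn : 2 ≤ n) (H : SimpleGraph (Fin n)) (D : ℕ) (hD : 1 ≤ D)
    (hdeg : ∀ v : Fin n, ∀ N : Finset (Fin n), (∀ u ∈ N, H.Adj v u) → N.card ≤ D) :
    sInf {p : ℝ | 0 ≤ p ∧ p ≤ 1 ∧ (1 : ℝ) / 2 ≤ ∑ G : SimpleGraph (Fin n),
        Set.indicator {G | H ⊑ G}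
          (fun G => p ^ G.edgeSet.ncard * (1 - p) ^ (n.choose 2 - G.edgeSet.ncard)) G} ≤
      12510 * D * sInf {p : ℝ | 0 ≤ p ∧ p ≤ 1 ∧ ∀ H' : H.Subgraph,
          (1 : ℝ) / 2 ≤
            ((⊤ : SimpleGraph (Fin n)).copyCount H'.coe : ℝ) * p ^ H'.edgeSet.ncard} *
        Real.log n := by
  classical
  set Sc : Set ℝ := {p : ℝ | 0 ≤ p ∧ p ≤ 1 ∧ (1 : ℝ) / 2 ≤ ∑ G : SimpleGraph (Fin n),
        Set.indicator {G | H ⊑ G}
          (fun G => p ^ G.edgeSet.ncard * (1 - p) ^ (n.choose 2 - G.edgeSet.ncard)) G} with hSc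
  set SE : Set ℝ := {p : ℝ | 0 ≤ p ∧ p ≤ 1 ∧ ∀ H' : H.Subgraph,
        (1 : ℝ) / 2 ≤
          ((⊤ : SimpleGraph (Fin n)).copyCount H'.coe : ℝ) * p ^ H'.edgeSet.ncard} with hSE
  have hl2 : (0.6931471803 : ℝ) < Real.log 2 := Real.log_two_gt_d9
  have hnR : (2 : ℝ) ≤ n := by exact_mod_cast hn
  have hnpos : (0 : ℝ) < n := by linarith
  have hlogn : Real.log 2 ≤ Real.log n := Real.log_le_log (by norm_num) hnR
  have hlogpos : 0 < Real.log n := by linarith
  have hD1 : (1 : ℝ) ≤ (D : ℝ) := by exact_mod_cast hD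
  have hDpos : (0 : ℝ) < (D : ℝ) := by linarith
  have hbddc : BddBelow Sc := ⟨0, fun p hp => hp.1⟩
  have hneE : SE.Nonempty := by
    refine ⟨1, zero_le_one, le_rfl, fun H' => ?_⟩
    have h1 : (1 : ℝ) ≤ ((⊤ : SimpleGraph (Fin n)).copyCount H'.coe : ℝ) := by
      exact_mod_cast one_le_copyCount_top_coe H'
    rw [one_pow, mul_one]
    linarith
  have hsE0 : 0 ≤ sInf SE := le_csInf hneE (fun p hp => hp.1)
  have hkey : ∀ p ∈ SE, sInf Sc ≤ 12510 * D * p * Real.log n := by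
    intro p hp
    have hL1 : (1 : ℝ) ≤ 90 * (D : ℝ) := by linarith
    obtain ⟨p', hp'0, hp'1, hp'c, hp'le⟩ :=
      contain_of_labelled hn H (90 * (D : ℝ)) hL1 p hp.1 hp.2.2
        (deg_hlab hn H D hD hdeg p hp.1 hp.2.2)
    have hmem : p' ∈ Sc := ⟨hp'0, hp'1, hp'c⟩
    refine le_trans (csInf_le hbddc hmem) (le_trans hp'le ?_)
    have e : 139 * (90 * (D : ℝ)) * p * Real.log n = 12510 * D * p * Real.log n := by ring
    rw [e]
  have hC : (0 : ℝ) < 12510 * D * Real.log n := by positivity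
  apply le_of_forall_pos_le_add
  intro ε hε
  set η : ℝ := ε / (12510 * D * Real.log n) with hη
  have hη0 : 0 < η := div_pos hε hC
  obtain ⟨p, hpSE, hplt⟩ := exists_lt_of_csInf_lt hneE (by linarith : sInf SE < sInf SE + η)
  have h1 := hkey p hpSE
  have h3 : 12510 * D * Real.log n * η = ε := by
    rw [hη]; field_simp
  calc sInf Sc ≤ 12510 * D * p * Real.log n := h1
    _ ≤ 12510 * D * (sInf SE + η) * Real.log n := by
        have : 12510 * (D : ℝ) * p ≤ 12510 * D * (sInf SE + η) := by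
          apply mul_le_mul_of_nonneg_left hplt.le
          positivity
        exact mul_le_mul_of_nonneg_right this hlogpos.le
    _ = 12510 * D * sInf SE * Real.log n + 12510 * D * Real.log n * η := by ring
    _ = 12510 * D * sInf SE * Real.log n + ε := by rw [h3]

/-- **(d)** **The copy-count inequality for hosts of maximum degree at most `D`.** If every
subgraph of `H` has expected count at least one at density `q`, then for every graph `F` on the
same vertex set, `N(H,F) ≤ N(K_n,F) * min(1, 90 D q)^{e(F)}`. -/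
theorem deg_copyCount_le {n : ℕ} (hn : 2 ≤ n) (H : SimpleGraph (Fin n)) (D : ℕ) (hD : 1 ≤ D)
    (hdeg : ∀ v : Fin n, ∀ N : Finset (Fin n), (∀ u ∈ N, H.Adj v u) → N.card ≤ D)
    (q : ℝ) (hq0 : 0 ≤ q)
    (h : ∀ H' : H.Subgraph,
      1 ≤ ((⊤ : SimpleGraph (Fin n)).copyCount H'.coe : ℝ) * q ^ H'.edgeSet.ncard)
    (F : SimpleGraph (Fin n)) :
    (H.copyCount F : ℝ) ≤ ((⊤ : SimpleGraph (Fin n)).copyCount F : ℝ) *
      (min 1 (90 * D * q)) ^ F.edgeSet.ncard := by
  classical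
  have hlab : (H.labelledCopyCount F : ℝ) ≤
      (n.factorial : ℝ) * (min 1 (90 * D * q)) ^ F.edgeSet.ncard :=
    deg_labelled_desc hn H hq0 h D hD hdeg F
  have htop : (⊤ : SimpleGraph (Fin n)).labelledCopyCount F = n.factorial := by
    rw [labelledCopyCount_top, Fintype.card_fin, Nat.descFactorial_self]
  apply copyCount_le_of_labelled H (⊤ : SimpleGraph (Fin n)) F
  rw [htop]
  exact hlab

/-- **(c')** The threshold bound with the instance-free degree hypothesis: if every vertex of `H`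
has at most `D` neighbours (`D ≥ 1`), then `p_c(n,H) ≤ 12510 * D * p_E(n,H) * log n`. -/
theorem deg_threshold_le_ncard {n : ℕ} (hn : 2 ≤ n) (H : SimpleGraph (Fin n)) (D : ℕ)
    (hD : 1 ≤ D) (hdeg : ∀ v : Fin n, (H.neighborSet v).ncard ≤ D) :
    sInf {p : ℝ | 0 ≤ p ∧ p ≤ 1 ∧ (1 : ℝ) / 2 ≤ ∑ G : SimpleGraph (Fin n),
        Set.indicator {G | H ⊑ G}
          (fun G => p ^ G.edgeSet.ncard * (1 - p) ^ (n.choose 2 - G.edgeSet.ncard)) G} ≤
      12510 * D * sInf {p : ℝ | 0 ≤ p ∧ p ≤ 1 ∧ ∀ H' : H.Subgraph,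
          (1 : ℝ) / 2 ≤
            ((⊤ : SimpleGraph (Fin n)).copyCount H'.coe : ℝ) * p ^ H'.edgeSet.ncard} *
        Real.log n :=
  deg_threshold_le hn H D hD (hdeg_of_neighborSet_ncard H D hdeg)

/-- **(d')** The copy-count inequality with the instance-free degree hypothesis. -/
theorem deg_copyCount_le_ncard {n : ℕ} (hn : 2 ≤ n) (H : SimpleGraph (Fin n)) (D : ℕ)
    (hD : 1 ≤ D) (hdeg : ∀ v : Fin n, (H.neighborSet v).ncard ≤ D)
    (q : ℝ) (hq0 : 0 ≤ q)
    (h : ∀ H' : H.Subgraph,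
      1 ≤ ((⊤ : SimpleGraph (Fin n)).copyCount H'.coe : ℝ) * q ^ H'.edgeSet.ncard)
    (F : SimpleGraph (Fin n)) :
    (H.copyCount F : ℝ) ≤ ((⊤ : SimpleGraph (Fin n)).copyCount F : ℝ) *
      (min 1 (90 * D * q)) ^ F.edgeSet.ncard :=
  deg_copyCount_le hn H D hD (hdeg_of_neighborSet_ncard H D hdeg) q hq0 h F

end Vale.Agent.Lib.P064.H69
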